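import Vale.Agent.P144E.Basic
import Vale.Agent.P144D.B.Bd

/-!
The covering of the boundary at an intermediate scale, away from the tips.
-/

namespace Vale.Agent.P144Z

open Finset Matrix

namespace An4a

open B5b in
/-- The covering of the boundary by flat points and corners, localised at one point. -/
theorem cover_at {α : ℝ} (hα : 0 < α) (K : ℕ) : ∃ n₂ L₀ : ℕ, ∀ L ≥ L₀, ∃ κ > 0,
    ∀ (M : ℕ) [NeZero M] (I : Finset (Tor M)) (r ℓ : ℕ) (z : Tor M), ShapeAt I α κ r z → L ≤ ℓ →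
    8 * (L * ℓ) ≤ r → ∃ Z₁ Z₂ : Finset (Tor M), Z₁.card ≤ 234 * L ∧ Z₂.card ≤ n₂ ∧
      (∀ b ∈ Z₁, tdist b z ≤ 4 * (L * ℓ) ∧ NearB I 1 b ∧ ∃ (ν : ℂ) (w₀ : ℝ), ‖ν‖ = 1 ∧ 0 ≤ w₀ ∧
        K * (w₀ + 1) ≤ ℓ ∧ OutH I b ν (K * ℓ) w₀ ∧ InH I b ν (K * ℓ) w₀) ∧
      ∀ x, tdist x z ≤ 4 * (L * ℓ) → NearB I 1 x → ∃ y ∈ Z₁ ∪ Z₂, tdist x y ≤ ℓ := by
  obtain ⟨n₂, h⟩ := cover hα K
  refine ⟨n₂, 6 * K + 4, fun L hL => ?_⟩
  obtain ⟨κ, hκ, h⟩ := h L hL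
  refine ⟨κ, hκ, fun M _ I r l z hS hl hr => ?_⟩
  obtain ⟨S₁, S₂, ν₁, ν₂, n1, n2, ha, e1, e2, hI⟩ := hS
  obtain ⟨Y₁, Y₂, y1, y2, y3, y4⟩ := h S₁ S₂ ν₁ ν₂ l n1 n2 ha e1 e2 hl
  have r1 : (4 * L * l + (K * l + 1) : ℤ) ≤ r := by
    have h1 : (8 * (L * l) : ℤ) ≤ r := by exact_mod_cast hr
    have h2 : (6 * K + 4 : ℤ) ≤ L := by exact_mod_cast hL
    have h3 : (L : ℤ) ≤ l := by exact_mod_cast hl
    nlinarith
  have mem : ∀ b v, Bx (4 * L * l) b → Bx (K * l + 1) v →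
      (z + prj M b + prj M v ∈ I ↔ b + v ∈ S₁ ∩ S₂) := fun b v h1 h2 => by
    rw [add_assoc, ← G.prj_add]
    exact hI _ (bx_iff.2 ((h1.add h2).mono r1))
  have k1 : (1 : ℤ) ≤ K * l + 1 := by
    have : (0 : ℤ) ≤ K * l := by positivity
    omega
  have near : ∀ b d, Bx 1 d → tdist (z + prj M b + prj M d) (z + prj M b) ≤ 1 := fun b d hd => by
    rw [add_assoc, ← G.prj_add]
    exact tdist_bx z (by rwa [add_sub_cancel_left])
  refine ⟨Y₁.image fun v => z + prj M v, Y₂.image fun v => z + prj M v, card_image_le.trans y1,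
    card_image_le.trans y2, fun c hc => ?_, fun x h1 h2 => ?_⟩
  · obtain ⟨b, hb', rfl⟩ := mem_image.1 hc
    obtain ⟨o1, ⟨⟨d, o2, o3⟩, d', o4, o5⟩, ν, w₀, o6, o7, o8, o9, o10⟩ := y3 b hb'
    refine ⟨?_, ⟨⟨_, (mem b d o1 (o2.mono k1)).2 o3, near b d o2⟩, _,
      mt (mem b d' o1 (o4.mono k1)).1 o5, near b d' o4⟩, ν, w₀, o6, o7, o8,
      fun v hv hw => ?_, fun v hv hw => ?_⟩
    · have h3 := tdist_bx z (u := b) (v := 0) (r := 4 * (L * l)) (by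
        rw [sub_zero]
        push_cast
        rwa [← mul_assoc])
      have h4 : prj M 0 = 0 := by simp [prj]
      rwa [h4, add_zero] at h3
    · have h3 : Bx (K * l) v := by exact_mod_cast bx_iff.1 hv
      exact mt (mem b v o1 (h3.mono (by omega))).1 (o9 v h3 hw)
    · have h3 : Bx (K * l) v := by exact_mod_cast bx_iff.1 hv
      exact (mem b v o1 (h3.mono (by omega))).2 (o10 v h3 hw)
  · obtain ⟨⟨f, f1, f2⟩, f', f3, f4⟩ := h2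
    have o1 : Bx (4 * L * l) (lft (x - z)) := by
      have := bx_lft h1
      push_cast at this
      rwa [mul_assoc]
    have o2 : Bx 1 (lft (f - x)) := bx_lft f2
    have o3 : Bx 1 (lft (f' - x)) := bx_lft f4
    have o4 := mem _ _ o1 (o2.mono k1)
    have o5 := mem _ _ o1 (o3.mono k1)
    rw [G.add_prj_lft, G.add_prj_lft] at o4 o5
    obtain ⟨y, o6, o7⟩ := y4 _ o1 ⟨⟨_, o2, o4.1 f1⟩, _, o3, mt o5.2 f3⟩
    refine ⟨z + prj M y, ?_, ?_⟩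
    · rw [← image_union]
      exact mem_image_of_mem _ o6
    · have o8 := tdist_bx z o7
      rwa [G.add_prj_lft] at o8

end An4a

theorem levS_of (hF : FlatW) : LevS := by
  intro α hα N
  obtain ⟨c₂, hc₂, hS⟩ := dec_solv α hα
  obtain ⟨c₃, hc₃, hK⟩ := rk_of c₂ hc₂
  refine ⟨c₃, hc₃, 234, 9 * N + 16, fun η hη _ => ?_⟩
  have hη' : 0 < η / c₃ := by positivity
  obtain ⟨K, K', hR⟩ := B5d.rank hom_rank conn_of_shape hα hη'
  obtain ⟨L₁, hK⟩ := hK _ hη' K'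
  obtain ⟨n₂, L₂, hV⟩ := An4a.cover_at hα K
  refine ⟨n₂, L₁ + L₂ + K' + 11, fun a ha => ?_⟩
  obtain ⟨κ₁, hκ₁, hS⟩ := hS a
  obtain ⟨κ₂, hκ₂, hV⟩ := hV a (by omega)
  obtain ⟨κ, hκ, k1, k2, k4⟩ : ∃ κ > 0, κ ≤ κ₁ ∧ κ ≤ κ₂ ∧ κ ≤ α / 16 := by
    refine ⟨min κ₁ (min κ₂ (α / 16)), by positivity, ?_⟩
    simp only [← le_min_iff, le_refl]
  refine ⟨κ, hκ, fun M _ R Tp B r ℓ hI hB hM hl hr z hz => ?_⟩
  have hl1 : L₁ * ℓ ≤ a * ℓ := Nat.mul_le_mul_right _ (by omega)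
  have hlK : K' * ℓ ≤ a * ℓ := Nat.mul_le_mul_right _ (by omega)
  have hl11 : 11 * ℓ ≤ a * ℓ := Nat.mul_le_mul_right _ (by omega)
  have hla : a * ℓ ≤ a * (11 * ℓ) := Nat.mul_le_mul_left _ (by omega)
  obtain ⟨t, ht⟩ : ∃ t, t = a * ℓ := ⟨_, rfl⟩
  have hN : N ≤ N * t := Nat.le_mul_of_pos_right _ (by omega)
  have e1 : (9 * N + 16) * t = 9 * (N * t) + 16 * t := by ring
  have e2 : N * (8 * t + 1) = 8 * (N * t) + N := by ring
  rw [← ht] at hr hz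
  have hsh : ∀ b, tdist b z ≤ 4 * t → ShapeAt R.In α κ (8 * t) b := fun b hb =>
    hI.far b _ (by omega) fun p hp => by
      have t1 := hz p hp
      have t2 := tdist_triangle z b p
      rw [tdist_comm z b] at t2
      omega
  obtain ⟨Z₁, Z₂, z1, z2, z3, z4⟩ := hV M R.In (8 * t) ℓ z
    ((hsh z (by rw [tdist_self]; exact Nat.zero_le _)).mono k2 le_rfl) hl (by omega)
  refine ⟨Z₁, Z₂, z1, z2, fun b hb => ?_, fun x hx hn => z4 x (by omega) hn⟩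
  obtain ⟨hbz, hnb, ν, w₀, hν, hw, hKw, ho, hi⟩ := z3 b hb
  have hb' := hsh b (by omega)
  have hfl : Flat B b (2 * (a * ℓ) + 8) := hF M R B N r hI.toRgh hB b 1 _ hnb (by omega)
  obtain ⟨d1, d2⟩ := hS M R B (8 * t) b hB.sign (hb'.mono k1 le_rfl) (by omega) hnb.2 (11 * ℓ)
    (a * ℓ) (by omega) hla (by omega) hfl
  obtain ⟨ρ, r1, r2, r3⟩ := hR M R B κ (8 * t) ℓ b ν w₀ hB.sign hb' (by linarith) (by omega)
    (by omega) (by omega) (fun g hg => hfl g (by omega)) hν hw hKw ho hi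
  have := hK M (R.pw * B) b ℓ ρ (a * ℓ) (by omega) r1 r2 hl1 d1 d2 r3
  rw [mul_div_cancel₀ _ (by positivity)] at this
  exact ⟨hnb, this⟩

end Vale.Agent.P144Z
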